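import Mathlib

/-!
# P032: closed covers by finitely many states

`S` is a finite type of states, `F s` is the closed set of parameters at which the state `s` occurs (as
a cluster state).  If the states which occur at the same parameter have the same invariant `cmp`, then
`cmp` is constant on a connected set of parameters.
-/

open Set Filter Topology

namespace Vale.Agent.P032.H139

variable {S K X : Type*} [Finite S] [TopologicalSpace X] {F : S → Set X}

/-- **Event form**: two states which occur in a preconnected set, one with the property `Q` and one without: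
then there is an event, a parameter at which a state with `Q` and a state without `Q` occur. -/
theorem event {N : Set X} (hN : IsPreconnected N) (hc : ∀ s, IsClosed (F s))
    (hcov : ∀ t ∈ N, ∃ s, t ∈ F s) {Q : S → Prop} {t0 t1 : X} {s0 s1 : S} (h0 : t0 ∈ N)
    (h1 : t1 ∈ N) (hs0 : t0 ∈ F s0) (hs1 : t1 ∈ F s1) (hQ0 : Q s0) (hQ1 : ¬ Q s1) :
    ∃ t ∈ N, ∃ s s', t ∈ F s ∧ t ∈ F s' ∧ Q s ∧ ¬ Q s' := by
  by_contra hcon
  push Not at hcon
  have hA : IsClosed (⋃ s ∈ {s | Q s}, F s) :=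
    (Set.toFinite {s | Q s}).isClosed_biUnion fun s _ => hc s
  have hB : IsClosed (⋃ s ∈ {s | ¬ Q s}, F s) :=
    (Set.toFinite {s | ¬ Q s}).isClosed_biUnion fun s _ => hc s
  have hsub : N ⊆ (⋃ s ∈ {s | Q s}, F s) ∪ ⋃ s ∈ {s | ¬ Q s}, F s := by
    intro t ht
    obtain ⟨s, hs⟩ := hcov t ht
    by_cases hQ : Q s
    · exact Or.inl (mem_biUnion hQ hs)
    · exact Or.inr (mem_biUnion hQ hs)
  obtain ⟨t, htN, htA, htB⟩ := isPreconnected_closed_iff.1 hN _ _ hA hB hsub
    ⟨t0, h0, mem_biUnion hQ0 hs0⟩ ⟨t1, h1, mem_biUnion hQ1 hs1⟩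
  simp only [mem_iUnion, mem_ofPred_eq, exists_prop] at htA htB
  obtain ⟨s, hQs, hts⟩ := htA
  obtain ⟨s', hQs', hts'⟩ := htB
  exact hQs' (hcon t htN s s' hts hts' hQs)

/-- **The invariant is constant.** -/
theorem cmp_const {N : Set X} (hN : IsPreconnected N) (hc : ∀ s, IsClosed (F s))
    (hcov : ∀ t ∈ N, ∃ s, t ∈ F s) {cmp : S → K}
    (hcmp : ∀ t ∈ N, ∀ s s', t ∈ F s → t ∈ F s' → cmp s = cmp s') {t0 t1 : X} {s0 s1 : S}
    (h0 : t0 ∈ N) (h1 : t1 ∈ N) (hs0 : t0 ∈ F s0) (hs1 : t1 ∈ F s1) : cmp s0 = cmp s1 := by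
  by_contra hne
  obtain ⟨t, htN, s, s', hs, hs', hQ, hQ'⟩ := event hN hc hcov (Q := fun s => cmp s0 = cmp s)
    h0 h1 hs0 hs1 rfl hne
  exact hQ' (hQ.trans (hcmp t htN s s' hs hs'))

/-- **Shift**: if every state which occurs is moved by a shift of the parameter to the state `rot s`,
then `rot` preserves the invariant. -/
theorem cmp_shift [PreconnectedSpace X] (hc : ∀ s, IsClosed (F s)) (hcov : ∀ t, ∃ s, t ∈ F s)
    {cmp : S → K} (hcmp : ∀ t s s', t ∈ F s → t ∈ F s' → cmp s = cmp s') {sh : X → X} {rot : S → S}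
    (hrot : ∀ t s, t ∈ F s → sh t ∈ F (rot s)) {t : X} {s : S} (hs : t ∈ F s) :
    cmp (rot s) = cmp s :=
  (cmp_const isPreconnected_univ hc (fun t _ => hcov t) (fun t _ => hcmp t) (mem_univ t)
    (mem_univ _) hs (hrot t s hs)).symm

end Vale.Agent.P032.H139
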