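import Vale.Agent.P032.H139.Engine
import Vale.Agent.P032.H587.Gen

/-!
# P032: cluster states of moving configurations

`φ j : X → ℂ`, `j ∈ J` finite, is a configuration of points depending on a parameter.

* `Cl T φ W x0 s` : arbitrarily near `x0` there are parameters in `W` at which `φ j x` is a pure point
  (with a neighbourhood of pure points) of colour `s j`, for all `j`  (`φ j` continuous open maps).
* `ClS T φ W x0 P` : the same for maps which need not be open: `P j` is the locally constant palette.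
-/

open Set Filter Topology Metric

noncomputable section

namespace Vale.Agent.P032.H139

open Vale.Agent.P032.Six

variable {k : ℕ} {U : Fin k → Set ℂ} {T : ℂ → Set (Fin k)} {X : Type*} [TopologicalSpace X]
  {J : Type*} {φ : J → X → ℂ} {W W' : Set X} {x0 x : X} {s : J → Fin k} {P : J → Set (Fin k)}

/-- the parameters with state `s` -/
def Gs (T : ℂ → Set (Fin k)) (φ : J → X → ℂ) (s : J → Fin k) : Set X :=
  {x | ∀ j, T (φ j x) = {s j}}

/-- cluster states -/
def Cl (T : ℂ → Set (Fin k)) (φ : J → X → ℂ) (W : Set X) (x0 : X) (s : J → Fin k) : Prop :=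
  x0 ∈ closure (W ∩ Gs T φ s)

/-- the parameters with locally constant palettes `P` -/
def GsS (T : ℂ → Set (Fin k)) (φ : J → X → ℂ) (P : J → Set (Fin k)) : Set X :=
  {x | ∀ j, ∀ᶠ y in 𝓝 x, T (φ j y) = P j}

/-- cluster palettes -/
def ClS (T : ℂ → Set (Fin k)) (φ : J → X → ℂ) (W : Set X) (x0 : X) (P : J → Set (Fin k)) : Prop :=
  x0 ∈ closure (W ∩ GsS T φ P)

theorem Cl.mono (h : Cl T φ W x0 s) (hW : W ⊆ W') : Cl T φ W' x0 s :=
  closure_mono (inter_subset_inter_left _ hW) h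

theorem ClS.mono (h : ClS T φ W x0 P) (hW : W ⊆ W') : ClS T φ W' x0 P :=
  closure_mono (inter_subset_inter_left _ hW) h

/-- the set of the base points of a state is closed -/
theorem isClosed_Cl : IsClosed {x0 | Cl T φ W x0 s} := isClosed_closure

theorem isClosed_ClS : IsClosed {x0 | ClS T φ W x0 P} := isClosed_closure

/-- a cluster state occurs at points of `W ∩ N` for all neighbourhoods `N` -/
theorem Cl.freq (h : Cl T φ W x0 s) : ∃ᶠ x in 𝓝 x0, x ∈ W ∧ x ∈ Gs T φ s :=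
  mem_closure_iff_frequently.1 h

theorem ClS.freq (h : ClS T φ W x0 P) : ∃ᶠ x in 𝓝 x0, x ∈ W ∧ x ∈ GsS T φ P :=
  mem_closure_iff_frequently.1 h

/-- existence of parameters with state `s` in `W` -/
theorem Cl.exists (h : Cl T φ W x0 s) {N : Set X} (hN : N ∈ 𝓝 x0) : ∃ x ∈ W ∩ N, x ∈ Gs T φ s := by
  obtain ⟨x, ⟨hx, hx'⟩, hxN⟩ := (h.freq.and_eventually hN).exists
  exact ⟨x, ⟨hx, hxN⟩, hx'⟩

theorem ClS.exists (h : ClS T φ W x0 P) {N : Set X} (hN : N ∈ 𝓝 x0) :
    ∃ x ∈ W ∩ N, x ∈ GsS T φ P := by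
  obtain ⟨x, ⟨hx, hx'⟩, hxN⟩ := (h.freq.and_eventually hN).exists
  exact ⟨x, ⟨hx, hxN⟩, hx'⟩

/-- the pure parameters form a dense open set -/
theorem pure_param [Finite J] (h : Irr U T) (hc : ∀ j, Continuous (φ j))
    (ho : ∀ j, IsOpenMap (φ j)) : Dense (⋂ j, {x | ∃ i, T (φ j x) = {i}}) ∧
      IsOpen (⋂ j, {x | ∃ i, T (φ j x) = {i}}) :=
  dense_open_inter (fun j => (h.dense_pure (hc j) (ho j)).2) fun j => (h.dense_pure (hc j) (ho j)).1

/-- `Gs` is open -/
theorem isOpen_Gs [Finite J] (h : Irr U T) (hc : ∀ j, Continuous (φ j)) : IsOpen (Gs T φ s) := by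
  have : Gs T φ s = ⋂ j, (φ j) ⁻¹' {w | T w = {s j}} := by
    ext x; simp [Gs]
  rw [this]
  refine isOpen_iInter_of_finite fun j => IsOpen.preimage (hc j) ?_
  rw [isOpen_iff_mem_nhds]
  intro w hw
  have hw : T w = {s j} := hw
  filter_upwards [h.nhd w] with v hv
  obtain ⟨m, hm⟩ := h.ne v
  rw [hw] at hv
  have h1 : m = s j := by simpa using hv hm
  exact Subset.antisymm hv (by rintro l rfl; exact h1 ▸ hm)

/-- **Existence of cluster states** in an open set `W` with `x0` in its closure -/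
theorem exists_Cl [Finite J] (h : Irr U T) (hc : ∀ j, Continuous (φ j))
    (ho : ∀ j, IsOpenMap (φ j)) (hW : IsOpen W) (hx : x0 ∈ closure W) : ∃ s, Cl T φ W x0 s := by
  classical
  have hd := (pure_param h hc ho).1.open_subset_closure_inter hW
  have h1 : x0 ∈ closure (W ∩ ⋂ j, {x | ∃ i, T (φ j x) = {i}}) :=
    closure_minimal hd isClosed_closure hx
  have h2 : W ∩ ⋂ j, {x | ∃ i, T (φ j x) = {i}} ⊆ ⋃ s : J → Fin k, W ∩ Gs T φ s := by
    rintro x ⟨hxW, hx⟩
    have hx' : ∀ j, ∃ i, T (φ j x) = {i} := by simpa using hx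
    choose s hs using hx'
    exact mem_iUnion.2 ⟨s, hxW, hs⟩
  have h3 := closure_mono h2 h1
  rw [closure_iUnion_of_finite] at h3
  exact mem_iUnion.1 h3

/-- the palettes of the base point contain the cluster colours -/
theorem Cl.mem (h : Irr U T) (hc : ∀ j, Continuous (φ j)) (hs : Cl T φ W x0 s) (j : J) :
    s j ∈ T (φ j x0) := by
  have h1 : ∀ᶠ x in 𝓝 x0, T (φ j x) ⊆ T (φ j x0) := (hc j).continuousAt.eventually (h.nhd _)
  obtain ⟨x, ⟨-, hx⟩, hx2⟩ := hs.exists h1
  exact hx (by rw [hx2 j]; rfl)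

/-- every colour of `T (φ j x0)` occurs in a cluster state -/
theorem exists_Cl_mem [Finite J] (h : Irr U T) (hc : ∀ j, Continuous (φ j))
    (ho : ∀ j, IsOpenMap (φ j)) {j : J} {i : Fin k} (hi : i ∈ T (φ j x0)) :
    ∃ s, Cl T φ univ x0 s ∧ s j = i := by
  have hopen : IsOpen {x | T (φ j x) = {i}} := by
    have h1 := isOpen_Gs (J := Unit) (φ := fun _ : Unit => φ j) (s := fun _ => i) h fun _ => hc j
    have e : {x | T (φ j x) = {i}} = Gs T (fun _ : Unit => φ j) (fun _ => i) := by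
      ext x; simp [Gs]
    rw [e]; exact h1
  have hcl : x0 ∈ closure {x | T (φ j x) = {i}} := by
    have h1 : φ j x0 ∈ closure {w | T w = {i}} := mem_closure_iff_frequently.2 (h.pure _ i hi)
    exact (ho j).preimage_closure_subset_closure_preimage h1
  obtain ⟨s, hs⟩ := exists_Cl h hc ho hopen hcl
  obtain ⟨x, ⟨hx1, -⟩, hx2⟩ := hs.exists univ_mem
  refine ⟨s, hs.mono (subset_univ _), ?_⟩
  have h1 : T (φ j x) = {i} := hx1
  have h2 := hx2 j
  rw [h1] at h2
  exact (Set.singleton_injective h2).symm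

/-- a cluster colour misses the palettes of unit neighbours: pointwise condition on `W` -/
theorem Cl.ne_of (hs : Cl T φ W x0 s) {j : J} {i : Fin k} {N : Set X} (hN : N ∈ 𝓝 x0)
    (hi : ∀ x ∈ W ∩ N, i ∉ T (φ j x)) : s j ≠ i := by
  rintro rfl
  obtain ⟨x, hx, hx2⟩ := hs.exists hN
  exact hi x hx (by rw [hx2 j]; rfl)

/-- **Properness.** -/
theorem Cl.proper (h : Irr U T) (hs : Cl T φ W x0 s) {j l : J} {N : Set X} (hN : N ∈ 𝓝 x0)
    (hd : ∀ x ∈ W ∩ N, dist (φ j x) (φ l x) = 1) : s j ≠ s l := by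
  obtain ⟨x, hx, hx2⟩ := hs.exists hN
  exact h.pure_ne (hd x hx) (hx2 j) (hx2 l)

/-- **Existence of cluster palettes** -/
theorem exists_ClS [Finite J] (h : Irr U T) (hc : ∀ j, Continuous (φ j)) (hW : IsOpen W)
    (hx : x0 ∈ closure W) : ∃ P, ClS T φ W x0 P := by
  classical
  have hdn := (dense_open_inter (fun j => isOpen_LcT (T := T) (φ j)) fun j => h.dense_LcT (hc j)).1
  have hd := hdn.open_subset_closure_inter hW
  have h1 : x0 ∈ closure (W ∩ ⋂ j, LcT T (φ j)) := closure_minimal hd isClosed_closure hx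
  have h2 : W ∩ ⋂ j, LcT T (φ j) ⊆ ⋃ P : J → Set (Fin k), W ∩ GsS T φ P := by
    rintro x ⟨hxW, hx⟩
    refine mem_iUnion.2 ⟨fun j => T (φ j x), hxW, fun j => ?_⟩
    have := mem_iInter.1 hx j
    exact this
  have h3 := closure_mono h2 h1
  rw [closure_iUnion_of_finite] at h3
  exact mem_iUnion.1 h3

theorem ClS.sub (h : Irr U T) (hc : ∀ j, Continuous (φ j)) (hs : ClS T φ W x0 P) (j : J) :
    P j ⊆ T (φ j x0) := by
  have h1 : ∀ᶠ x in 𝓝 x0, T (φ j x) ⊆ T (φ j x0) := (hc j).continuousAt.eventually (h.nhd _)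
  obtain ⟨x, ⟨-, hx⟩, hx2⟩ := hs.exists h1
  rw [← (hx2 j).self_of_nhds]
  exact hx

theorem ClS.nonempty (h : Irr U T) (hs : ClS T φ W x0 P) (j : J) : (P j).Nonempty := by
  obtain ⟨x, -, hx⟩ := hs.exists univ_mem
  rw [← (hx j).self_of_nhds]
  exact h.ne _

/-- a colour in all cluster palettes at `x0` (for `W = univ`) is in all `T (φ j x)` near `x0`:
**persistent colours** -/
theorem persist [Finite J] (h : Irr U T) (hc : ∀ j, Continuous (φ j)) {j : J} {i : Fin k}
    (hi : ∀ P, ClS T φ univ x0 P → i ∈ P j) : ∀ᶠ x in 𝓝 x0, i ∈ T (φ j x) := by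
  classical
  -- the palettes which are no cluster palettes at `x0` do not occur near `x0`
  have h1 : ∀ P : J → Set (Fin k), ¬ ClS T φ univ x0 P → ∀ᶠ x in 𝓝 x0, ¬ ClS T φ univ x P := by
    intro P hP
    exact isClosed_ClS.isOpen_compl.mem_nhds hP
  have h2 : ∀ᶠ x in 𝓝 x0, ∀ P : J → Set (Fin k), ClS T φ univ x P → ClS T φ univ x0 P := by
    have h3 : ∀ P : J → Set (Fin k), ∀ᶠ x in 𝓝 x0, ClS T φ univ x P → ClS T φ univ x0 P := by
      intro P
      by_cases hP : ClS T φ univ x0 P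
      · exact Eventually.of_forall fun _ _ => hP
      · filter_upwards [h1 P hP] with x hx hx'
        exact absurd hx' hx
    exact eventually_all.2 h3
  filter_upwards [h2] with x hx
  obtain ⟨P, hP⟩ := exists_ClS (x0 := x) h hc isOpen_univ (by simp)
  exact hP.sub h hc j (hi P (hx P hP))

end Vale.Agent.P032.H139
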