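import Mathlib

/-!
# A checker for unsatisfiability proofs, evaluated by the kernel

Literals are natural numbers: `2 v` is the variable `v`, `2 v + 1` its negation.  A clause is a bit
mask.  All clauses (the input clauses and the derived ones) are the leaves of a search tree `Db`; every
derived clause comes with a code for the numbers of the clauses from which it follows by unit
propagation.  The definitions are written with recursors and raw operations on natural numbers, so
that the kernel evaluates them quickly.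
-/

namespace Vale.Agent.P032.H139.Lrat

/-- value of a literal -/
def lit (a : ℕ → Bool) (l : ℕ) : Bool := bif Nat.beq (l % 2) 0 then a (l / 2) else !(a (l / 2))

theorem lit_xor (a : ℕ → Bool) (l : ℕ) : lit a (l ^^^ 1) = !(lit a l) := by
  unfold lit
  have h1 : (l ^^^ 1) / 2 = l / 2 := by
    have := Nat.xor_div_two (a := l) (b := 1)
    simpa using this
  have h2 : (l ^^^ 1) % 2 = (l + 1) % 2 := by
    rw [Nat.xor_mod_two_eq]
  rw [h1, h2]
  rcases Nat.mod_two_eq_zero_or_one l with h | h
  · have h3 : (l + 1) % 2 = 1 := by omega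
    rw [h, h3]; rfl
  · have h3 : (l + 1) % 2 = 0 := by omega
    have h4 : Nat.beq 1 0 = false := rfl
    have h5 : Nat.beq 0 0 = true := rfl
    rw [h, h3, h4, h5]; simp

/-- the clause `K` holds -/
def Sat (a : ℕ → Bool) (K : ℕ) : Prop := ∃ l, K.testBit l = true ∧ lit a l = true

/-- all literals of `M` are false -/
def Fal (a : ℕ → Bool) (M : ℕ) : Prop := ∀ l, M.testBit l = true → lit a l = false

/-- branching -/
noncomputable def br {α : Type} (b : Bool) (x y : α) : α := @Bool.rec (fun _ => α) y x b

theorem br_true {α : Type} (x y : α) : br true x y = x := rfl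
theorem br_false {α : Type} (x y : α) : br false x y = y := rfl

/-- clauses by number -/
inductive Db : Type
  | leaf : ℕ → Db
  | node : ℕ → Db → Db → Db

/-- the clause with number `n` -/
noncomputable def Db.get (t : Db) : ℕ → ℕ :=
  @Db.rec (fun _ => ℕ → ℕ) (fun v _ => v)
    (fun k _ _ gl gr n => @Bool.rec (fun _ => ℕ) (gr n) (gl n) (Nat.ble n k)) t

/-- a tree of depth `d` with the leaves `cs`, numbered from `lo` -/
noncomputable def build (d : ℕ) : List ℕ → ℕ → (Db → List ℕ → Db) → Db :=
  @Nat.rec (fun _ => List ℕ → ℕ → (Db → List ℕ → Db) → Db)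
    (fun l _ k => @List.rec ℕ (fun _ => Db) (k (.leaf (nat_lit 0)) []) (fun c cs _ => k (.leaf c) cs)
      l)
    (fun d ih l lo k => ih l lo (fun t1 l1 => ih l1 (Nat.add lo (Nat.shiftLeft (nat_lit 1) d))
      (fun t2 l2 => k (.node (Nat.sub (Nat.add lo (Nat.shiftLeft (nat_lit 1) d)) (nat_lit 1)) t1 t2)
        l2))) d

/-- the bit of the opposite literal: `2 ^ l` is `1` modulo `3` if and only if `l` is even -/
noncomputable def opp (r : ℕ) : ℕ :=
  br (Nat.beq (Nat.mod r (nat_lit 3)) (nat_lit 1)) (Nat.shiftLeft r (nat_lit 1))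
    (Nat.shiftRight r (nat_lit 1))

/-- one propagation: the part `r` of a clause which is not falsified by `M` -/
noncomputable def stepR (r M : ℕ) (go : ℕ → Bool) : Bool :=
  br (Nat.beq r (nat_lit 0)) true
    (br (Nat.beq (Nat.land r (Nat.sub r (nat_lit 1))) (nat_lit 0)) (go (Nat.lor M (opp r))) false)

theorem pow_of_land {r : ℕ} (h0 : r ≠ 0) (h : Nat.land r (Nat.sub r 1) = 0) :
    ∃ l, r = 2 ^ l := by
  refine ⟨Nat.log2 r, ?_⟩
  by_contra hne
  have h1 : 2 ^ Nat.log2 r ≤ r := Nat.log2_self_le h0
  have h2 : r < 2 ^ (Nat.log2 r + 1) := Nat.lt_log2_self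
  have h3 : r.testBit (Nat.log2 r) = true := Nat.testBit_log2 h0
  have h4 : (r - 1).testBit (Nat.log2 r) = true :=
    Nat.testBit_of_two_pow_le_and_two_pow_add_one_gt (by omega) (by omega)
  have h5 : (r &&& (r - 1)).testBit (Nat.log2 r) = true := by
    rw [Nat.testBit_and, h3, h4]; rfl
  have h6 : r &&& (r - 1) = 0 := h
  rw [h6] at h5
  simp at h5

theorem pow_mod_three (l : ℕ) : 2 ^ l % 3 = if l % 2 = 0 then 1 else 2 := by
  induction l with
  | zero => rfl
  | succ l ih =>
    rw [pow_succ, Nat.mul_mod, ih]
    split_ifs <;> omega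

theorem opp_pow (l : ℕ) : opp (2 ^ l) = 2 ^ (l ^^^ 1) := by
  have e1 : Nat.mod (2 ^ l) 3 = if l % 2 = 0 then 1 else 2 := pow_mod_three l
  have e2 : Nat.shiftLeft (2 ^ l) 1 = 2 ^ (l + 1) := by
    change (2 ^ l) <<< 1 = _
    rw [Nat.shiftLeft_eq, pow_one, pow_succ]
  have e3 : Nat.shiftRight (2 ^ l) 1 = 2 ^ l / 2 := by
    change (2 ^ l) >>> 1 = _
    rw [Nat.shiftRight_one]
  change br (Nat.beq (Nat.mod (2 ^ l) 3) 1) (Nat.shiftLeft (2 ^ l) 1) (Nat.shiftRight (2 ^ l) 1) = _
  rw [e1, e2, e3]
  rcases Nat.mod_two_eq_zero_or_one l with h | h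
  · rw [if_pos h]
    have : l ^^^ 1 = l + 1 := by
      have h1 := Nat.xor_div_two (a := l) (b := 1)
      have h2 := Nat.xor_mod_two_eq (m := l) (n := 1)
      simp only [Nat.reduceDiv, Nat.xor_zero] at h1
      omega
    rw [this]; rfl
  · rw [if_neg (by omega)]
    have h3 : l ^^^ 1 = l - 1 := by
      have h1 := Nat.xor_div_two (a := l) (b := 1)
      have h2 := Nat.xor_mod_two_eq (m := l) (n := 1)
      simp only [Nat.reduceDiv, Nat.xor_zero] at h1
      omega
    have h4 : 2 ^ l / 2 = 2 ^ (l - 1) := by
      obtain ⟨m, rfl⟩ : ∃ m, l = m + 1 := ⟨l - 1, by omega⟩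
      rw [pow_succ]; simp
    rw [h3, h4]; rfl

/-- unit propagation from the falsified literals `M`; `true` if a conflict is found.  The numbers of
the clauses are the digits of `x` in base `2 ^ B` (with mask `mB`); they have to be less than `n`. -/
noncomputable def prop (B mB : ℕ) (t : Db) (n fuel : ℕ) : ℕ → ℕ → Bool :=
  @Nat.rec (fun _ => ℕ → ℕ → Bool) (fun _ _ => false)
    (fun _ ih x M => br (Nat.ble n (Nat.land x mB)) false
      (stepR (Nat.xor (t.get (Nat.land x mB)) (Nat.land (t.get (Nat.land x mB)) M)) M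
        (ih (Nat.shiftRight x B)))) fuel

theorem testBit_rem (K M l : ℕ) :
    (Nat.xor K (Nat.land K M)).testBit l = (K.testBit l && !(M.testBit l)) := by
  change (K ^^^ (K &&& M)).testBit l = _
  rw [Nat.testBit_xor, Nat.testBit_and]
  cases K.testBit l <;> cases M.testBit l <;> rfl

theorem stepR_sound {a : ℕ → Bool} {r M : ℕ} (hM : Fal a M) (hr : Sat a r) {go : ℕ → Bool}
    (hgo : ∀ M', Fal a M' → go M' = true → False) : stepR r M go = true → False := by
  intro h
  obtain ⟨l, hl1, hl2⟩ := hr
  unfold stepR at h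
  cases h2 : Nat.beq r 0
  · rw [h2, br_false] at h
    cases h3 : Nat.beq (Nat.land r (Nat.sub r 1)) 0
    · rw [h3, br_false] at h; cases h
    · rw [h3, br_true] at h
      refine hgo _ ?_ h
      rw [Nat.beq_eq] at h3
      rw [Bool.eq_false_iff, ne_eq, Nat.beq_eq] at h2
      obtain ⟨l', rfl⟩ := pow_of_land h2 h3
      rw [Nat.testBit_two_pow] at hl1
      have hlog : l' = l := by simpa using hl1
      subst hlog
      rw [opp_pow]
      intro m hm
      have hm : (M ||| 2 ^ (l' ^^^ 1)).testBit m = true := hm
      rw [Nat.testBit_or, Bool.or_eq_true] at hm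
      rcases hm with hm | hm
      · exact hM m hm
      · rw [Nat.testBit_two_pow] at hm
        have : l' ^^^ 1 = m := by simpa using hm
        rw [← this, lit_xor, hl2]; rfl
  · rw [Nat.beq_eq] at h2
    rw [h2] at hl1
    simp at hl1

theorem prop_sound {a : ℕ → Bool} {B mB : ℕ} {t : Db} {n : ℕ} (h : ∀ m < n, Sat a (t.get m)) :
    ∀ (fuel x M : ℕ), Fal a M → prop B mB t n fuel x M = true → False := by
  intro fuel
  induction fuel with
  | zero => intro x M _ h1; cases h1
  | succ fuel ih =>
    intro x M hM h1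
    have h1 : br (Nat.ble n (Nat.land x mB)) false
      (stepR (Nat.xor (t.get (Nat.land x mB)) (Nat.land (t.get (Nat.land x mB)) M)) M
        (prop B mB t n fuel (Nat.shiftRight x B))) = true := h1
    cases hg : Nat.ble n (Nat.land x mB)
    · rw [hg, br_false] at h1
      have hg : Nat.land x mB < n := by
        rw [Bool.eq_false_iff, ne_eq, Nat.ble_eq] at hg; omega
      refine stepR_sound hM ?_ (fun M' hM' h' => ih _ M' hM' h') h1
      obtain ⟨l, hl1, hl2⟩ := h _ hg
      refine ⟨l, ?_, hl2⟩
      rw [testBit_rem, hl1]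
      have hlM : M.testBit l = false := by
        by_contra hcon
        rw [Bool.not_eq_false] at hcon
        rw [hM l hcon] at hl2
        cases hl2
      rw [hlM]; rfl
    · rw [hg, br_true] at h1; cases h1

theorem sat_of_not_fal {a : ℕ → Bool} {C : ℕ} (h : ¬ Fal a C) : Sat a C := by
  unfold Fal at h
  push Not at h
  obtain ⟨l, h1, h2⟩ := h
  exact ⟨l, h1, by simpa using h2⟩

/-- the input clauses are the leaves with the numbers `n, n + 1, ..` -/
noncomputable def input (t : Db) (cs : List ℕ) : ℕ → Bool :=
  @List.rec ℕ (fun _ => ℕ → Bool) (fun _ => true)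
    (fun c _ ih n => br (Nat.beq (t.get n) c) (ih (Nat.succ n)) false) cs

theorem input_sound {a : ℕ → Bool} {t : Db} : ∀ (cs : List ℕ) (n : ℕ), input t cs n = true →
    (∀ C ∈ cs, Sat a C) → (∀ m < n, Sat a (t.get m)) → ∀ m < n + cs.length, Sat a (t.get m) := by
  intro cs
  induction cs with
  | nil => intro n _ _ h; simpa using h
  | cons c cs ih =>
    intro n h hcs hn m hm
    have h : br (Nat.beq (t.get n) c) (input t cs (n + 1)) false = true := h
    cases h1 : Nat.beq (t.get n) c
    · rw [h1, br_false] at h; cases h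
    · rw [h1, br_true] at h
      rw [Nat.beq_eq] at h1
      refine ih (n + 1) h (fun C hC => hcs C (List.mem_cons_of_mem _ hC)) ?_ m
        (by rw [List.length_cons] at hm; omega)
      intro m' hm'
      rcases Nat.lt_succ_iff_lt_or_eq.1 hm' with h2 | h2
      · exact hn m' h2
      · rw [h2, h1]; exact hcs c List.mem_cons_self

/-- the derived clauses; `n` is the number of the next clause, `hs` are the codes.  The last clause
is the empty one. -/
noncomputable def run (B mB fuel : ℕ) (t : Db) (hs : List ℕ) : ℕ → Bool :=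
  @List.rec ℕ (fun _ => ℕ → Bool) (fun _ => false)
    (fun x _ ih n => br (prop B mB t n fuel x (t.get n))
      (br (Nat.beq (t.get n) (nat_lit 0)) true (ih (Nat.succ n))) false) hs

theorem run_sound {a : ℕ → Bool} {B mB fuel : ℕ} {t : Db} : ∀ (hs : List ℕ) (n : ℕ),
    (∀ m < n, Sat a (t.get m)) → run B mB fuel t hs n = true → False := by
  intro hs
  induction hs with
  | nil => intro n _ h; cases h
  | cons x hs ih =>
    intro n hn h
    have h : br (prop B mB t n fuel x (t.get n))
      (br (Nat.beq (t.get n) 0) true (run B mB fuel t hs (n + 1))) false = true := h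
    cases h1 : prop B mB t n fuel x (t.get n)
    · rw [h1, br_false] at h; cases h
    · rw [h1, br_true] at h
      have hC : Sat a (t.get n) := sat_of_not_fal fun hf => prop_sound hn fuel x _ hf h1
      cases h2 : Nat.beq (t.get n) 0
      · rw [h2, br_false] at h
        refine ih (n + 1) (fun m hm => ?_) h
        rcases Nat.lt_succ_iff_lt_or_eq.1 hm with h3 | h3
        · exact hn m h3
        · rw [h3]; exact hC
      · rw [Nat.beq_eq] at h2
        obtain ⟨l, hl, -⟩ := hC
        rw [h2] at hl
        simp at hl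

/-- all derived clauses with the numbers `n, n + 1, ..` are correct (to split a long proof) -/
noncomputable def steps (B mB fuel : ℕ) (t : Db) (hs : List ℕ) : ℕ → Bool :=
  @List.rec ℕ (fun _ => ℕ → Bool) (fun _ => true)
    (fun x _ ih n => br (prop B mB t n fuel x (t.get n)) (ih (Nat.succ n)) false) hs

theorem steps_sound {a : ℕ → Bool} {B mB fuel : ℕ} {t : Db} : ∀ (hs : List ℕ) (n : ℕ),
    (∀ m < n, Sat a (t.get m)) → steps B mB fuel t hs n = true →
    ∀ m < n + hs.length, Sat a (t.get m) := by
  intro hs
  induction hs with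
  | nil => intro n h _; simpa using h
  | cons x hs ih =>
    intro n hn h
    have h : br (prop B mB t n fuel x (t.get n)) (steps B mB fuel t hs (n + 1)) false = true := h
    cases h1 : prop B mB t n fuel x (t.get n)
    · rw [h1, br_false] at h; cases h
    · rw [h1, br_true] at h
      have hC : Sat a (t.get n) := sat_of_not_fal fun hf => prop_sound hn fuel x _ hf h1
      intro m hm
      rw [List.length_cons] at hm
      refine ih (n + 1) (fun m hm => ?_) h m (by omega)
      rcases Nat.lt_succ_iff_lt_or_eq.1 hm with h3 | h3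
      · exact hn m h3
      · rw [h3]; exact hC

/-- **The checker.** `cs` are the input clauses, `t` the tree of all clauses, `hs` the codes of the
derived clauses, in base `2 ^ B`. -/
noncomputable def check (B fuel : ℕ) (t : Db) (cs hs : List ℕ) : Bool :=
  br (input t cs (nat_lit 0))
    (run B (Nat.sub (Nat.shiftLeft (nat_lit 1) B) (nat_lit 1)) fuel t hs cs.length) false

/-- **Soundness.** -/
theorem check_sound {B fuel : ℕ} {t : Db} {cs hs : List ℕ} (h : check B fuel t cs hs = true)
    (a : ℕ → Bool) : ¬ ∀ C ∈ cs, Sat a C := by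
  intro hcs
  unfold check at h
  cases h1 : input t cs 0
  · rw [h1, br_false] at h; cases h
  · rw [h1, br_true] at h
    refine run_sound (a := a) hs _ ?_ h
    have := input_sound cs 0 h1 hcs (fun m hm => absurd hm (Nat.not_lt_zero m))
    simpa using this

end Vale.Agent.P032.H139.Lrat
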