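import Vale.Agent.P032.H139.Gst

/-!
# P032: rotating configurations about a centre

`rc w j (x, t) = x + w j * cis t` : parameters `(x, t) ∈ ℂ × ℝ`, base points `(z, t)`.
`Fr T z w s` : the closed set of the angles `t` at which `s` is a cluster state.  If `w (ρ j) = w j * ω`,
`ω = cis (π / 3)`, then `t ∈ Fr s → t + π / 3 ∈ Fr (s ∘ ρ)`.
-/

open Set Filter Topology Metric

noncomputable section

namespace Vale.Agent.P032.H139

open Vale.Agent.P032.Six

variable {k : ℕ} {U : Fin k → Set ℂ} {T : ℂ → Set (Fin k)} {J : Type*} {w : J → ℂ} {z : ℂ}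

/-- rotating configuration with moving centre -/
def rc (w : J → ℂ) (j : J) (x : ℂ × ℝ) : ℂ := x.1 + w j * cis x.2

theorem continuous_rc (j : J) : Continuous (rc w j) :=
  continuous_fst.add (continuous_const.mul (continuous_cis.comp continuous_snd))

theorem isOpenMap_rc (j : J) : IsOpenMap (rc w j) := by
  intro O hO
  rw [isOpen_iff_mem_nhds]
  rintro _ ⟨⟨x, t⟩, hx, rfl⟩
  have hc : Continuous fun y : ℂ => (y - w j * cis t, t) := by fun_prop
  have h1 : (fun y : ℂ => (y - w j * cis t, t)) ⁻¹' O ∈ 𝓝 (rc w j (x, t)) := by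
    refine hc.continuousAt.preimage_mem_nhds (hO.mem_nhds ?_)
    simpa [rc] using hx
  refine mem_of_superset h1 fun y hy => ⟨(y - w j * cis t, t), hy, ?_⟩
  simp [rc]

theorem rc_dist {j l : J} (h : ‖w j - w l‖ = 1) (x : ℂ × ℝ) : dist (rc w j x) (rc w l x) = 1 := by
  rw [dist_eq_norm, show rc w j x - rc w l x = (w j - w l) * cis x.2 by unfold rc; ring, norm_mul, h,
    norm_cis, one_mul]

/-- the angles with cluster state `s` -/
def Fr (T : ℂ → Set (Fin k)) (z : ℂ) (w : J → ℂ) (s : J → Fin k) : Set ℝ :=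
  {t | Cl T (rc w) univ (z, t) s}

theorem isClosed_Fr (s : J → Fin k) : IsClosed (Fr T z w s) :=
  (isClosed_Cl (T := T) (φ := rc w) (W := univ) (s := s)).preimage
    (continuous_const.prodMk continuous_id)

theorem exists_Fr [Finite J] (h : Irr U T) (t : ℝ) : ∃ s, t ∈ Fr T z w s :=
  exists_Cl h continuous_rc isOpenMap_rc isOpen_univ (by simp)

theorem Fr.proper (h : Irr U T) {t : ℝ} {s : J → Fin k} (hs : t ∈ Fr T z w s) {j l : J}
    (hd : ‖w j - w l‖ = 1) : s j ≠ s l :=
  Cl.proper h hs univ_mem fun x _ => rc_dist hd x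

theorem Fr.mem (h : Irr U T) {t : ℝ} {s : J → Fin k} (hs : t ∈ Fr T z w s) (j : J) :
    s j ∈ T (z + w j * cis t) := Cl.mem h continuous_rc hs j

theorem exists_Fr_mem [Finite J] (h : Irr U T) {t : ℝ} {j : J} {i : Fin k}
    (hi : i ∈ T (z + w j * cis t)) : ∃ s, t ∈ Fr T z w s ∧ s j = i :=
  exists_Cl_mem h continuous_rc isOpenMap_rc hi

/-- **Shift by an angle `a`** -/
theorem Fr.shift {t a : ℝ} {s : J → Fin k} (hs : t ∈ Fr T z w s) {ρ : J → J}
    (hρ : ∀ j, w (ρ j) = w j * cis a) : t + a ∈ Fr T z w (s ∘ ρ) := by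
  have hadd : ∀ u v : ℝ, cis (u + v) = cis u * cis v := by
    intro u v
    unfold cis
    rw [← Complex.exp_add]; congr 1; push_cast; ring
  have hc : Continuous fun x : ℂ × ℝ => (x.1, x.2 + a) := by fun_prop
  have h1 : (fun x : ℂ × ℝ => (x.1, x.2 + a)) (z, t) ∈
      closure ((fun x : ℂ × ℝ => (x.1, x.2 + a)) '' (univ ∩ Gs T (rc w) s)) :=
    image_closure_subset_closure_image hc ⟨_, hs, rfl⟩
  refine closure_mono ?_ h1
  rintro _ ⟨⟨x, u⟩, ⟨-, hx⟩, rfl⟩
  refine ⟨trivial, fun j => ?_⟩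
  have := hx (ρ j)
  have e : rc w j (x, u + a) = rc w (ρ j) (x, u) := by
    simp only [rc, hadd, hρ]; ring
  rw [e]; exact this

/-- **Transition theorem.** If the states which occur at one angle have the same invariant, then the
invariant is preserved by the rotation by `a`. -/
theorem rot_inv [Finite J] (h : Irr U T) {K : Type*} {cmp : (J → Fin k) → K}
    (hcmp : ∀ t s s', t ∈ Fr T z w s → t ∈ Fr T z w s' → cmp s = cmp s') {a : ℝ} {ρ : J → J}
    (hρ : ∀ j, w (ρ j) = w j * cis a) {t : ℝ} {s : J → Fin k} (hs : t ∈ Fr T z w s) :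
    cmp (s ∘ ρ) = cmp s := by
  classical
  exact cmp_shift (F := fun s => Fr T z w s) (fun s => isClosed_Fr s) (fun t => exists_Fr h t) hcmp
    (sh := fun t => t + a) (rot := fun s => s ∘ ρ) (fun _ _ hs => Fr.shift hs hρ) hs

end Vale.Agent.P032.H139
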